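import Vale.Agent.P070ZO.Inv
import Vale.Agent.P070ZA.Defs
import Vale.Agent.P070ZU.Ultra

/-!
# Cut-offs and the key construction on the notions of the construction
-/

set_option linter.all false

namespace Vale.Agent.P070Z.O

open Vale.Agent.P129B Vale.Agent.P070ZT Filter

universe v

variable {N : Type v} [ZM N] {R K : Type*} [Nm K R] [Field R] [LinearOrder R]
  [IsStrictOrderedRing R] [Field K] [Algebra R K] [KA R K] [StarRing K] [CX R K]
  [Coded N R] [RF N R] [Coded N K] [KF N R K]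
  {H : Type*} [AddCommGroup H] [Module K H] [Nm H R] [Ip H K] [IA R K H] [Coded N H] [HS N R K H]
  {L : Type*} [AddCommGroup L] [Module K L] [Nm L R] [Ip L K] [IA R K L] [Coded N L] [HS N R K L]

include R K

theorem subA {A : Set (Op N K H)} (h : CS N K A) : SubA K A :=
  ⟨h.one, fun ha hb => h.add _ ha _ hb, fun ha hb => h.mul _ ha _ hb, fun ha => h.star _ ha,
    fun c _ ha => h.smul c _ ha⟩

theorem cut_spec {A : Set (Op N K H)} (h : CS N K A) {k : Op N K H} (hk : k ∈ A) (hp : Pos k)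
    (n : NN N) : cut n k ∈ A ∧ nm (cut n k) ≤ 1 ∧
      cut n k * (1 + algebraMap R K (ipow (2 : R) n) • k) = 1 ∧
      (1 + algebraMap R K (ipow (2 : R) n) • k) * cut n k = 1 := by
  have := h.intl
  obtain ⟨r, h1, h2, h3, h4⟩ := exists_inv (subA h) h.cld
    (h.add _ h.one _ (h.smul (algebraMap R K (ipow (2 : R) n)) _ hk)) fun v => by
      rw [Op.add_apply, Op.one_apply, Op.smul_apply, ip_add_right, map_add, re_ip_self,
        ip_smul_right, KA.re_ofR_mul]
      linarith [mul_nonneg (ipow_pos (two_pos (α := R)) n).le (hp.2 v)]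
  have e : cut n k = r := Ring.inverse_unit ⟨_, r, h4, h3⟩
  rw [e]
  exact ⟨h1, h2, h3, h4⟩

theorem cut_eq {k y : Op N K H} (hp : Pos k) {n : NN N}
    (h : y * (1 + algebraMap R K (ipow (2 : R) n) • k) = 1) : cut n k = y := by
  have := congrArg (· * cut n k) h
  simp only [mul_assoc, (cut_spec cs_univ trivial hp n).2.2.2, mul_one, one_mul] at this
  exact this.symm

theorem cut_sa {k : Op N K H} (hp : Pos k) (n : NN N) : star (cut n k) = cut n k := by
  have := congrArg star (cut_spec cs_univ trivial hp n).2.2.2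
  rw [star_mul, star_add, star_one, star_smul, star_ofR, hp.1] at this
  exact (cut_eq hp this).symm

theorem nm_cut_le {k : Op N K H} (hp : Pos k) (n : NN N) : nm (cut n k) ≤ 1 :=
  (cut_spec cs_univ trivial hp n).2.1

theorem one_sub_cut {k : Op N K H} (hp : Pos k) (n : NN N) :
    1 - cut n k = (algebraMap R K (ipow (2 : R) n) • cut n k) * k := by
  have := (cut_spec cs_univ trivial hp n).2.2.1
  rw [mul_add, mul_one, mul_smul_comm] at this
  rw [smul_mul_assoc]
  exact sub_eq_of_eq_add' this.symm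

theorem defF_cut {k : Op N K H} (hp : Pos k) : DefF N fun n : NN N => cut n k :=
  defF_of_rel (R := fun (n : NN N) (y : Op N K H) =>
    y * (1 + algebraMap R K (ipow (2 : R) n) • k) = 1) (fun _ _ => inferInstance) (by fun_prop)
    fun n _ _ _ => ⟨cut_eq hp, fun h => h ▸ (cut_spec cs_univ trivial hp n).2.2.1⟩

theorem nm_mul_cut {k : Op N K H} (hk : Pos k) (n : NN N) : nm (k * cut n k) ≤ 2 * hp R n := by
  have h1 := (cut_spec cs_univ trivial hk n).2.2.2
  rw [add_mul, one_mul, smul_mul_assoc] at h1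
  have h2 := nm_sub_le (1 : Op N K H) (cut n k)
  rw [sub_eq_of_eq_add' h1.symm, nm_ofR_smul_of_nonneg (ipow_pos (two_pos (α := R)) n).le] at h2
  have h3 := two_ipow_mul_hp (R := R) n
  have h4 : ipow (2 : R) n * nm (k * cut n k) ≤ 2 := by
    linarith [Op.nm_one_le (N := N) (K := K) (H := H), nm_cut_le hk n]
  calc nm (k * cut n k) = ipow (2 : R) n * nm (k * cut n k) * hp R n := by
        rw [mul_right_comm, h3, one_mul]
    _ ≤ _ := mul_le_mul_of_nonneg_right h4 (hp_pos n).le

theorem cut_small {k : Op N K H} (hk : Pos k) (ε : R) (hε : 0 < ε) :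
    ∃ m : NN N, ∀ n, m ≤ n → nm (k * cut n k) ≤ ε :=
  (exists_mul_hp_lt N 2 hε).imp fun _ h n hn => (nm_mul_cut hk n).trans (h n hn).le

theorem pos_conj {k : Op N K H} (hk : Pos k) (u : Op N K H) : Pos (u * k * star u) :=
  ⟨by rw [star_mul, star_mul, star_star, hk.1, mul_assoc], fun x => by
    rw [Op.mul_apply, Op.mul_apply, ← ip_star_left]; exact hk.2 _⟩

variable {P : Op N K H → Op N K L}

/-- the setting of a representation -/
noncomputable def envP (hP : URp Set.univ P) : Env K (Op N K H) L :=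
  env P hP.one (fun a b => hP.add a trivial b trivial) (fun a b => hP.mul a trivial b trivial)
    (fun c a => hP.smul c a trivial) (fun a => hP.star a trivial) fun a => hP.bd a trivial

instance : Nonempty (NN N) := ⟨0⟩

theorem ult (hP : URp Set.univ P) (hU : IsUltraRep P) {A : Set (Op N K H)} (hA : CS N K A) :
    Ult (envP hP) A Pos (cut : NN N → _) where
  sub := subA hA
  cut k hk hp := ⟨fun m => (cut_spec hA hk hp m).1, cut_sa hp, nm_cut_le hp,
    fun ε hε => eventually_atTop.2 (cut_small hp ε hε), fun m => ⟨_, one_sub_cut hp m⟩⟩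
  det k x c hp h ε hε := eventually_atTop.2 (hU.det (fun z => by
    have h1 := (envP hP).p_sub x (c • 1) z
    rw [(envP hP).p_smul, (envP hP).p_one] at h1
    exact h1) (defF_cut hp) (nm_cut_le hp) (cut_sa hp) (cut_small hp) h hε)
  ineq k1 k2 x h1 h2 h ε hε := eventually_atTop.2 (hU.ineq (defF_cut h1) (defF_cut h2)
    (nm_cut_le h1) (nm_cut_le h2) (cut_sa h2) (cut_small h1) (cut_small h2) h hε)
  conj _ u h := pos_conj h u
  sa _ h := h.1
  cay _ hD h := by
    have := hA.intl
    exact cayley (subA hA) hA.cld hD h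

end Vale.Agent.P070Z.O

namespace Vale.Agent.P070Z

open Vale.Agent.P129B Vale.Agent.P070ZT Filter

universe v

variable {N : Type v} [ZM N] {R K : Type*} [Nm K R] [Field R] [LinearOrder R]
  [IsStrictOrderedRing R] [Field K] [Algebra R K] [KA R K] [StarRing K] [CX R K]
  [Coded N R] [RF N R] [Coded N K] [KF N R K]
  {H : Type*} [AddCommGroup H] [Module K H] [Nm H R] [Ip H K] [IA R K H] [Coded N H] [HS N R K H]
  {L : Type*} [AddCommGroup L] [Module K L] [Nm L R] [Ip L K] [IA R K L] [Coded N L] [HS N R K L]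

include R K

/-- **The key construction.** -/
theorem key_construction {P : Op N K H → Op N K L} (hP : URp Set.univ P) (hU : IsUltraRep P)
    {A : Set (Op N K H)} (hA : CS N K A) {k1 k2 : Op N K H} {ξ ζ : L} (C : Conf P A k1 k2 ξ ζ)
    (inj1 : ∀ x : H, k1 x = 0 → x = 0) (inj2 : ∀ x : H, k2 x = 0 → x = 0) :
    ∃ u : Op N K H, Un u ∧ u * k1 ∈ A ∧ k2 * u ∈ A ∧
      (∀ T : Op N K H, (∀ a ∈ A, T * a = a * T) → T * u = u * T) ∧
      (∀ z, P k1 z = 0 → P k2 (P u z) = 0) ∧ (∀ z, P k2 z = 0 → P k1 (P (star u) z) = 0) := by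
  have := hA.intl
  exact O.key_op hP.defF hA.cld (O.ult hP hU hA)
    ⟨C.k1_mem, C.k2_mem, C.k1_pos, C.k2_pos, C.k1_nm, C.k2_nm, C.det1, C.det2, C.ineq, C.ξ_nm,
      C.ζ_nm, C.ξ_ker, C.ζ_ker, C.full1, C.full2⟩ inj1 inj2

end Vale.Agent.P070Z
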