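import Vale.Agent.P129BZ.Scal

/-!
# One step of the key construction, algebraic part: the setting
-/

set_option linter.all false

namespace Vale.Agent.P070Z.O

open Vale.Agent.P129B Filter

variable {R : Type*} [Field R] [LinearOrder R] [IsStrictOrderedRing R]
  {K : Type*} [Field K] [Algebra R K] [Nm K R] [KA R K]
  {B : Type*} [Ring B] [StarRing B] [Module K B] [Nm B R] [NA R K B]
  {V : Type*} [AddCommGroup V] [Module K V] [Nm V R] [NA R K V]

variable (K B V) in
/-- a normed star ring acting on an inner product space -/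
structure Env where
  ip : V → V → K
  p : B → V → V
  ip_add : ∀ x y z, ip x (y + z) = ip x y + ip x z
  ip_smul : ∀ (c : K) x y, ip x (c • y) = c * ip x y
  ip_conj : ∀ x y, KA.conj (ip x y) = ip y x
  ip_self : ∀ x, ip x x = algebraMap R K (nm x ^ 2)
  cs : ∀ x y, nm (ip x y) ≤ nm x * nm y
  p_add : ∀ a b v, p (a + b) v = p a v + p b v
  p_smul : ∀ (c : K) a v, p (c • a) v = c • p a v
  p_mul : ∀ a b v, p (a * b) v = p a (p b v)
  p_one : ∀ v, p 1 v = v
  p_vadd : ∀ a v w, p a (v + w) = p a v + p a w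
  p_vsmul : ∀ a (c : K) v, p a (c • v) = c • p a v
  p_star : ∀ a v w, ip (p (star a) v) w = ip v (p a w)
  p_nm : ∀ a v, nm (p a v) ≤ nm a * nm v
  nm_mul : ∀ a b : B, nm (a * b) ≤ nm a * nm b
  nm_star : ∀ a : B, nm (star a) = nm a
  cstar : ∀ a : B, nm (star a * a) = nm a * nm a

variable (K) in
/-- star subalgebras, as sets -/
structure SubA (A : Set B) : Prop where
  one : (1 : B) ∈ A
  add : ∀ {a b}, a ∈ A → b ∈ A → a + b ∈ A
  mul : ∀ {a b}, a ∈ A → b ∈ A → a * b ∈ A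
  star : ∀ {a}, a ∈ A → star a ∈ A
  smul : ∀ (c : K) {a}, a ∈ A → c • a ∈ A

theorem SubA.neg {A : Set B} (h : SubA K A) {a : B} (ha : a ∈ A) : -a ∈ A := by
  have := h.smul (-1) ha
  rwa [neg_smul, one_smul] at this

theorem SubA.sub {A : Set B} (h : SubA K A) {a b : B} (ha : a ∈ A) (hb : b ∈ A) : a - b ∈ A := by
  rw [sub_eq_add_neg]; exact h.add ha (h.neg hb)

namespace Env

variable (E : Env K B V)

theorem p_vzero (a : B) : E.p a 0 = 0 := by
  have := E.p_vsmul a 0 0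
  rwa [zero_smul, zero_smul] at this

theorem p_zero (v : V) : E.p 0 v = 0 := by
  have := E.p_smul 0 0 v
  rwa [zero_smul, zero_smul] at this

theorem p_neg (a : B) (v : V) : E.p (-a) v = -E.p a v := by
  have := E.p_smul (-1) a v
  rwa [neg_smul, one_smul, neg_smul, one_smul] at this

theorem p_vneg (a : B) (v : V) : E.p a (-v) = -E.p a v := by
  have := E.p_vsmul a (-1) v
  rwa [neg_smul, one_smul, neg_smul, one_smul] at this

theorem p_sub (a b : B) (v : V) : E.p (a - b) v = E.p a v - E.p b v := by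
  rw [sub_eq_add_neg, E.p_add, E.p_neg, sub_eq_add_neg]

theorem p_vsub (a : B) (v w : V) : E.p a (v - w) = E.p a v - E.p a w := by
  rw [sub_eq_add_neg, E.p_vadd, E.p_vneg, sub_eq_add_neg]

theorem p_star' (a : B) (v w : V) : E.ip v (E.p (star a) w) = E.ip (E.p a v) w := by
  rw [← E.p_star, star_star]

theorem ip_zero (x : V) : E.ip x 0 = 0 := by
  have := E.ip_smul 0 x 0
  rwa [zero_smul, zero_mul] at this

theorem ip_one {x : V} (h : nm x = 1) : E.ip x x = 1 := by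
  rw [E.ip_self, h, one_pow, map_one]

theorem nm_ip_symm (x y : V) : nm (E.ip x y) = nm (E.ip y x) := by
  rw [← E.ip_conj x y, KA.nm_conj]

theorem p_le {a : B} {C : R} (h : nm a ≤ C) (v : V) : nm (E.p a v) ≤ C * nm v :=
  (E.p_nm a v).trans (mul_le_mul_of_nonneg_right h (nm_nonneg v))

theorem p_le_one {a : B} (h : nm a ≤ 1) (v : V) : nm (E.p a v) ≤ nm v := by
  simpa using E.p_le h v

include E in
theorem mul_le {a b : B} {s t : R} (ha : nm a ≤ s) (hb : nm b ≤ t) : nm (a * b) ≤ s * t :=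
  (E.nm_mul a b).trans (mul_le_mul ha hb (nm_nonneg b) ((nm_nonneg a).trans ha))

/-- `x` is a scalar on the kernel of `k` -/
def DetAt (k x : B) (c : K) : Prop :=
  ∀ z w : V, E.p k z = 0 → E.p k w = 0 → E.ip w (E.p x z) = c * E.ip w z

def Det (k : B) (G : Set B) : Prop := ∀ x ∈ G, ∃ c : K, E.DetAt k x c

def Ineq (k1 k2 : B) (G : Set B) : Prop :=
  ∀ x ∈ G, ∀ z1 z2 : V, E.p k1 z1 = 0 → E.p k2 z2 = 0 → E.ip z2 (E.p x z1) = 0

def Full (k : B) (A : Set B) (ξ : V) : Prop :=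
  ∀ ε : R, 0 < ε → ∃ a ∈ A, E.p a ξ ≠ 0 ∧ nm (E.p k (E.p a ξ)) ≤ ε * nm (E.p a ξ)

theorem Ineq.symm {E : Env K B V} {k1 k2 : B} {A : Set B} (hA : SubA K A) (h : E.Ineq k1 k2 A) :
    E.Ineq k2 k1 A := by
  intro x hx z1 z2 hz1 hz2
  have := h (star x) (hA.star hx) z2 z1 hz2 hz1
  rw [E.p_star'] at this
  rw [← E.ip_conj, this, map_zero]

theorem Det.at {E : Env K B V} {k : B} {A : Set B} (h : E.Det k A) {ξ : V} (h1 : nm ξ = 1)
    (h2 : E.p k ξ = 0) {c : B} (hc : c ∈ A) : E.DetAt k c (E.ip ξ (E.p c ξ)) := by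
  obtain ⟨t, ht⟩ := h c hc
  have h3 := ht ξ ξ h2 h2
  rw [E.ip_one h1, mul_one] at h3
  rw [h3]; exact ht

/-- unitaries -/
def Un (u : B) : Prop := star u * u = 1 ∧ u * star u = 1

theorem Un.star {u : B} (h : Un u) : Un (star u) := ⟨by rw [star_star]; exact h.2,
  by rw [star_star]; exact h.1⟩

theorem Un.mul {u w : B} (h : Un u) (k : Un w) : Un (u * w) :=
  ⟨by rw [star_mul, mul_assoc, ← mul_assoc (Star.star u), h.1, one_mul, k.1],
    by rw [star_mul, mul_assoc, ← mul_assoc w, k.2, one_mul, h.2]⟩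

theorem un_one : Un (1 : B) := ⟨by simp, by simp⟩

theorem cancel {u : B} (hu : Un u) (z : V) : E.p (star u) (E.p u z) = z := by
  rw [← E.p_mul, hu.1, E.p_one]

theorem cancel' {u : B} (hu : Un u) (z : V) : E.p u (E.p (star u) z) = z := by
  rw [← E.p_mul, hu.2, E.p_one]

theorem nm_eq_of_ip {x y : V} (h : E.ip x x = E.ip y y) : nm x = nm y := by
  rw [E.ip_self, E.ip_self] at h
  exact (pow_left_inj₀ (nm_nonneg _) (nm_nonneg _) two_ne_zero).1 (KA.ofR_inj h)

theorem nm_un {u : B} (hu : Un u) (z : V) : nm (E.p u z) = nm z :=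
  E.nm_eq_of_ip (by rw [← E.p_star', E.cancel hu])

include E in
theorem nm_one_le : nm (1 : B) ≤ 1 := by
  have h := E.cstar 1
  rw [star_one, one_mul] at h
  have h0 := nm_nonneg (1 : B)
  by_contra hc
  push Not at hc
  nlinarith

include E in
theorem un_le {u : B} (hu : Un u) : nm u ≤ 1 := by
  have h := E.cstar u
  rw [hu.1] at h
  have h1 := E.nm_one_le
  have h0 := nm_nonneg u
  by_contra hc
  push Not at hc
  nlinarith

include E in
theorem mul_un_le {u : B} (hu : Un u) (a : B) : nm (a * u) ≤ nm a := by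
  simpa using E.mul_le (le_refl (nm a)) (E.un_le hu)

include E in
theorem un_mul_le {u : B} (hu : Un u) (a : B) : nm (u * a) ≤ nm a := by
  simpa using E.mul_le (E.un_le hu) (le_refl (nm a))

theorem ip_star_mul (x : B) (z : V) :
    E.ip z (E.p (star x * x) z) = algebraMap R K (nm (E.p x z) ^ 2) := by
  rw [E.p_mul, E.p_star', E.ip_self]

/-- on the kernel of a determining element all vectors behave like one unit vector -/
theorem nm_of_det {A : Set B} (hA : SubA K A) {k x : B} (hD : E.Det k A) (hx : x ∈ A) {ξ : V}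
    (hξ : nm ξ = 1) (hk : E.p k ξ = 0) {z : V} (hz : E.p k z = 0) :
    nm (E.p x z) = nm (E.p x ξ) * nm z := by
  have h1 := hD.at hξ hk (hA.mul (hA.star hx) hx) z z hz hz
  rw [E.ip_star_mul, E.ip_star_mul, E.ip_self, ← map_mul, ← mul_pow] at h1
  exact (pow_left_inj₀ (nm_nonneg _) (mul_nonneg (nm_nonneg _) (nm_nonneg _)) two_ne_zero).1
    (KA.ofR_inj h1)

end Env

variable {ι : Type*} [SemilatticeSup ι] [Nonempty ι]

/-- null families -/
def Sm (u : ι → R) : Prop := ∀ ε : R, 0 < ε → ∀ᶠ m in atTop, u m ≤ ε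

theorem Sm.mono {u w : ι → R} (h : Sm w) (k : ∀ m, u m ≤ w m) : Sm u := fun ε hε =>
  (h ε hε).mono fun m hm => (k m).trans hm

theorem Sm.add {u w : ι → R} (h : Sm u) (k : Sm w) : Sm fun m => u m + w m := fun ε hε => by
  filter_upwards [h _ (half_pos hε), k _ (half_pos hε)] with m h1 h2
  linarith

theorem Sm.const_mul {u : ι → R} (h : Sm u) {c : R} (hc : 0 ≤ c) : Sm fun m => c * u m :=
  fun ε hε => by
  filter_upwards [h (ε / (c + 1)) (by positivity)] with m h1
  have h2 : c * (ε / (c + 1)) ≤ ε := by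
    rw [← mul_div_assoc, div_le_iff₀ (by positivity)]; nlinarith
  exact (mul_le_mul_of_nonneg_left h1 hc).trans h2

/-- cut-off families -/
structure Cut (A : Set B) (k : B) (f : ι → B) : Prop where
  mem : ∀ m, f m ∈ A
  sa : ∀ m, star (f m) = f m
  le : ∀ m, nm (f m) ≤ 1
  small : Sm fun m => nm (k * f m)
  fix : ∀ m, ∃ h : B, 1 - f m = h * k

theorem Cut.p_fix {A : Set B} {k : B} {f : ι → B} (h : Cut A k f) (E : Env K B V) (m : ι) {ξ : V}
    (hξ : E.p k ξ = 0) : E.p (f m) ξ = ξ := by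
  obtain ⟨g, hg⟩ := h.fix m
  have h1 : E.p (1 - f m) ξ = 0 := by rw [hg, E.p_mul, hξ, E.p_vzero]
  rw [E.p_sub, E.p_one] at h1
  exact (sub_eq_zero.1 h1).symm

/-- what is used of the ultrapower, of the cut-offs and of the algebra -/
structure Ult (E : Env K B V) (A : Set B) (Pos : B → Prop) (f : ι → B → B) : Prop where
  sub : SubA K A
  cut : ∀ k ∈ A, Pos k → Cut A k fun m => f m k
  det : ∀ k x c, Pos k → E.DetAt k x c →
    Sm fun m => nm (f m k * x * f m k - c • (f m k * f m k))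
  ineq : ∀ k1 k2 x, Pos k1 → Pos k2 →
    (∀ z1 z2 : V, E.p k1 z1 = 0 → E.p k2 z2 = 0 → E.ip z2 (E.p x z1) = 0) →
    Sm fun m => nm (f m k2 * x * f m k1)
  conj : ∀ k u, Pos k → Pos (u * k * star u)
  sa : ∀ k, Pos k → star k = k
  cay : ∀ D ∈ A, star D = -D → ∃ r ∈ A, nm r ≤ 1 ∧ r * (1 - D) = 1 ∧ (1 - D) * r = 1

/-- the hypotheses of the key construction -/
structure Conf (E : Env K B V) (A : Set B) (Pos : B → Prop) (k1 k2 : B) (ξ ζ : V) : Prop where
  k1_mem : k1 ∈ A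
  k2_mem : k2 ∈ A
  k1_pos : Pos k1
  k2_pos : Pos k2
  k1_nm : nm k1 ≤ 1
  k2_nm : nm k2 ≤ 1
  det1 : E.Det k1 A
  det2 : E.Det k2 A
  ineq : E.Ineq k1 k2 A
  ξ_nm : nm ξ = 1
  ζ_nm : nm ζ = 1
  ξ_ker : E.p k1 ξ = 0
  ζ_ker : E.p k2 ζ = 0
  full1 : E.Full k2 A ξ
  full2 : E.Full k1 A ζ

end Vale.Agent.P070Z.O
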