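import Vale.Agent.P070ZO.Key
import Vale.Agent.P070ZA.Op

/-!
# Inverses in closed subalgebras; the key construction on operators
-/

set_option linter.all false

namespace Vale.Agent.P070Z.O

open Vale.Agent.P129B Filter

universe v

variable {N : Type v} [ZM N] {R K : Type*} [Nm K R] [Field R] [LinearOrder R]
  [IsStrictOrderedRing R] [Field K] [Algebra R K] [KA R K] [StarRing K] [CX R K]
  [Coded N R] [RF N R] [Coded N K] [KF N R K]
  {H : Type*} [AddCommGroup H] [Module K H] [Nm H R] [Ip H K] [IA R K H] [Coded N H] [HS N R K H]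
  {L : Type*} [AddCommGroup L] [Module K L] [Nm L R] [Ip L K] [IA R K L] [Coded N L] [HS N R K L]

include R K

/-- Neumann series -/
theorem neumann {A : Set (Op N K H)} [Intl N A] (hA : SubA K A) (hcl : Cld A) {y : Op N K H}
    (hy : y ∈ A) {q : R} (h0 : 0 ≤ q) (hq : q < 1) (h : nm y ≤ q) :
    ∃ s ∈ A, s * (1 - y) = 1 ∧ (1 - y) * s = 1 := by
  have key : ∀ n : NN N, isum (ipow y) n * (1 - y) = 1 - ipow y n ∧
      (1 - y) * isum (ipow y) n = 1 - ipow y n ∧ nm (ipow y n) ≤ ipow q n ∧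
      isum (ipow y) n ∈ A ∧ ipow y n ∈ A ∧ y * ipow y n = ipow y n * y := fun n =>
    NN.ind (P := fun n => isum (ipow y) n * (1 - y) = 1 - ipow y n ∧
      (1 - y) * isum (ipow y) n = 1 - ipow y n ∧ nm (ipow y n) ≤ ipow q n ∧
      isum (ipow y) n ∈ A ∧ ipow y n ∈ A ∧ y * ipow y n = ipow y n * y) (by fun_prop)
      ⟨by simp, by simp, by simpa using Op.nm_one_le, by simpa using hA.sub hy hy,
        by simpa using hA.one, by simp⟩
      (fun n ⟨h1, h2, h3, h4, h5, h6⟩ => by
        rw [isum_succ (by fun_prop), ipow_succ, ipow_succ]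
        refine ⟨by rw [add_mul, h1]; noncomm_ring, ?_, Op.nm_mul_le_of h3 h, hA.add h4 h5,
          hA.mul h5 hy, by rw [← mul_assoc, h6]⟩
        rw [mul_add, h2, sub_mul, h6]; noncomm_ring) n
  have hq' : 0 < 1 - q := sub_pos.2 hq
  obtain ⟨s, hs⟩ := exists_tt (s := fun n : NN N => isum (ipow y) n) (by fun_prop) fun ε hε => by
    obtain ⟨n, hn⟩ := exists_ipow_lt N h0 hq (ε := ε * (1 - q) / 2) (by positivity)
    refine ⟨n, fun k l hk hl => ?_⟩
    have e : isum (ipow y) k - isum (ipow y) l =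
        (ipow y l - ipow y k) + (isum (ipow y) k - isum (ipow y) l) * y := by
      have : (isum (ipow y) k - isum (ipow y) l) * (1 - y) = ipow y l - ipow y k := by
        rw [sub_mul, (key k).1, (key l).1]; abel
      rw [← this]; noncomm_ring
    have u1 := nm_add_le (ipow y l - ipow y k) ((isum (ipow y) k - isum (ipow y) l) * y)
    rw [← e] at u1
    have u2 := Op.nm_mul_le_of (le_refl (nm (isum (ipow y) k - isum (ipow y) l))) h
    have u3 := nm_sub_le (ipow y l) (ipow y k)
    refine lt_of_mul_lt_mul_right ?_ hq'.le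
    linarith [(key k).2.2.1, (key l).2.2.1, hn k hk, hn l hl]
  have t1 : Tt (fun n : NN N => 1 - ipow y n) (1 : Op N K H) := fun ε hε => by
    obtain ⟨n, hn⟩ := exists_ipow_lt N h0 hq hε
    exact ⟨n, fun k hk => by
      rw [sub_sub_cancel_left, nm_neg]; exact (key k).2.2.1.trans_lt (hn k hk)⟩
  refine ⟨s, hcl.mem_of_tt hs fun n => (key n).2.2.2.1, ?_, ?_⟩
  · have a := hs.map (f := fun a => a * (1 - y)) (C := nm (1 - y)) fun a b => by
      rw [← sub_mul, mul_comm]; exact Op.nm_mul_le _ _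
    simp only [fun n => (key n).1] at a
    exact a.uniq t1
  · have a := hs.map (f := fun a => (1 - y) * a) (C := nm (1 - y)) fun a b => by
      rw [← mul_sub]; exact Op.nm_mul_le _ _
    simp only [fun n => (key n).2.1] at a
    exact a.uniq t1

/-- accretive elements are invertible in every closed subalgebra -/
theorem exists_inv {A : Set (Op N K H)} [Intl N A] (hA : SubA K A) (hcl : Cld A) {x : Op N K H}
    (hx : x ∈ A) (h : ∀ v, nm v ^ 2 ≤ KA.re (ip v (x v))) :
    ∃ r ∈ A, nm r ≤ 1 ∧ r * x = 1 ∧ x * r = 1 := by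
  have hM : 0 < nm x ^ 2 + 1 := by positivity
  obtain ⟨t, ht⟩ : ∃ t, t = (nm x ^ 2 + 1)⁻¹ := ⟨_, rfl⟩
  have t0 : 0 < t := ht ▸ inv_pos.2 hM
  have t1 : t * (nm x ^ 2 + 1) = 1 := by rw [ht]; exact inv_mul_cancel₀ hM.ne'
  have t2 : t ≤ 1 := by nlinarith [mul_nonneg t0.le (sq_nonneg (nm x))]
  obtain ⟨s, hs, e1, e2⟩ := neumann hA hcl (hA.sub hA.one (hA.smul (algebraMap R K t) hx))
    (q := 1 - t / 2) (by linarith) (by linarith) (Op.opNorm_le (by linarith) fun v => by
      refine le_of_sq_le_sq ?_ (mul_nonneg (by linarith) (nm_nonneg v))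
      rw [Op.sub_apply, Op.one_apply, Op.smul_apply, nm_sub_sq, ip_smul_right, KA.re_ofR_mul,
        nm_ofR_smul_of_nonneg t0.le]
      have u1 := pow_le_pow_left₀ (nm_nonneg _) (x.le_opNorm v) 2
      have u2 := mul_le_mul_of_nonneg_left (h v) t0.le
      have u3 := mul_le_mul_of_nonneg_left u1 (sq_nonneg t)
      have u4 : t ^ 2 * (nm x * nm v) ^ 2 = (t - t ^ 2) * nm v ^ 2 := by
        have : t * nm x ^ 2 = 1 - t := by linarith
        calc t ^ 2 * (nm x * nm v) ^ 2 = t * (t * nm x ^ 2) * nm v ^ 2 := by ring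
          _ = _ := by rw [this]; ring
      nlinarith [mul_nonneg (sq_nonneg t) (sq_nonneg (nm v))])
  rw [sub_sub_cancel] at e1 e2
  have e3 : x * (algebraMap R K t • s) = 1 := by rw [mul_smul_comm, ← smul_mul_assoc, e2]
  refine ⟨algebraMap R K t • s, hA.smul _ hs, Op.opNorm_le zero_le_one fun v => ?_,
    by rw [smul_mul_assoc, ← mul_smul_comm, e1], e3⟩
  have u := h ((algebraMap R K t • s) v)
  rw [← Op.mul_apply, e3, Op.one_apply] at u
  have u2 := u.trans (re_ip_le _ _)
  rw [one_mul]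
  rcases (nm_nonneg ((algebraMap R K t • s) v)).eq_or_lt with e | e
  · rw [← e]; exact nm_nonneg v
  · exact le_of_mul_le_mul_left (by rwa [← sq]) e

theorem cayley {A : Set (Op N K H)} [Intl N A] (hA : SubA K A) (hcl : Cld A) {D : Op N K H}
    (hD : D ∈ A) (h : star D = -D) : ∃ r ∈ A, nm r ≤ 1 ∧ r * (1 - D) = 1 ∧ (1 - D) * r = 1 :=
  exists_inv hA hcl (hA.sub hA.one hD) fun v => by
    have h1 := ip_star_left D v v
    rw [h, Op.neg_apply, ip_neg_left] at h1
    have h2 := congrArg KA.re h1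
    rw [map_neg, re_ip_symm] at h2
    rw [Op.sub_apply, Op.one_apply, ip_sub_right, map_sub, re_ip_self]
    linarith

/-- the setting given by a contractive unital star homomorphism -/
noncomputable def env (P : Op N K H → Op N K L) (one : P 1 = 1)
    (add : ∀ a b, P (a + b) = P a + P b) (mul : ∀ a b, P (a * b) = P a * P b)
    (smul : ∀ (c : K) a, P (c • a) = c • P a) (st : ∀ a, P (star a) = star (P a))
    (bd : ∀ a v, nm (P a v) ≤ nm a * nm v) : Env K (Op N K H) L where
  ip := ip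
  p a v := P a v
  ip_add := ip_add_right
  ip_smul := ip_smul_right
  ip_conj x y := by rw [← CX.star_eq, star_ip]
  ip_self := ip_self
  cs := nm_ip_le
  p_add a b v := by rw [add]; rfl
  p_smul c a v := by rw [smul]; rfl
  p_mul a b v := by rw [mul]; rfl
  p_one v := by rw [one]; rfl
  p_vadd a := map_add (P a)
  p_vsmul a := map_smul (P a)
  p_star a v w := by rw [st, ip_star_left]
  p_nm := bd
  nm_mul := Op.nm_mul_le
  nm_star := Op.nm_star
  cstar a := by rw [Op.nm_star_mul_self, sq]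

/-- **The key construction** on operators. -/
theorem key_op {P : Op N K H → Op N K L} (dP : DefF N P) {one : P 1 = 1}
    {add : ∀ a b, P (a + b) = P a + P b} {mul : ∀ a b, P (a * b) = P a * P b}
    {smul : ∀ (c : K) a, P (c • a) = c • P a} {st : ∀ a, P (star a) = star (P a)}
    {bd : ∀ a v, nm (P a v) ≤ nm a * nm v} {A : Set (Op N K H)} [Intl N A] (hcl : Cld A)
    {Pos : Op N K H → Prop} {ι : Type*} [SemilatticeSup ι] [Nonempty ι]
    {F : ι → Op N K H → Op N K H} (U : Ult (env P one add mul smul st bd) A Pos F)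
    {k1 k2 : Op N K H} {ξ ζ : L} (C : Conf (env P one add mul smul st bd) A Pos k1 k2 ξ ζ)
    (inj1 : ∀ x, k1 x = 0 → x = 0) (inj2 : ∀ x, k2 x = 0 → x = 0) :
    ∃ u : Op N K H, (star u * u = 1 ∧ u * star u = 1) ∧ u * k1 ∈ A ∧ k2 * u ∈ A ∧
      (∀ T : Op N K H, (∀ a ∈ A, T * a = a * T) → T * u = u * T) ∧
      (∀ z, P k1 z = 0 → P k2 (P u z) = 0) ∧ (∀ z, P k2 z = 0 → P k1 (P (star u) z) = 0) :=
  key_abs (N := N) (env P one add mul smul st bd)
    (env (fun a => a) rfl (fun _ _ => rfl) (fun _ _ => rfl) (fun _ _ => rfl) (fun _ => rfl)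
      Op.le_opNorm) rfl (DefF.opApp DefF.id.fst DefF.id.snd)
    (DefF.opApp (dP.comp DefF.id.fst) DefF.id.snd) (fun _ _ h => Op.ext h)
    (fun T T' h1 h2 h3 h4 => exists_op T T' h1 h2 h3 1 fun x => by rw [one_mul]; exact h4 x)
    hcl U C inj1 inj2

end Vale.Agent.P070Z.O
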