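import Vale.Agent.P070ZO.One
import Vale.Agent.P070ZS5.Dense

/-!
# The key construction over an abstract algebra of operators
-/

set_option linter.all false

namespace Vale.Agent.P070Z.O

open Vale.Agent.P129B Filter

universe v

variable {N : Type v} [ZM N] {R K : Type*} [Nm K R] [Field R] [LinearOrder R]
  [IsStrictOrderedRing R] [Field K] [Algebra R K] [KA R K] [StarRing K] [CX R K]
  [Coded N R] [RF N R] [Coded N K] [KF N R K]
  {H : Type*} [AddCommGroup H] [Module K H] [Nm H R] [Ip H K] [IA R K H] [Coded N H] [HS N R K H]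
  {V : Type*} [AddCommGroup V] [Module K V] [Nm V R] [NA R K V] [Coded N V] [NS N R K V]
  {B : Type*} [Ring B] [StarRing B] [Module K B] [Nm B R] [NA R K B] [Coded N B] [NS N R K B]
  [Cpl N R B] [DefMul N B] [DefStar N B] [DefOne N B]
  {ι : Type*} [SemilatticeSup ι] [Nonempty ι]

theorem dp {E : Env K B V} (h : DefF N fun q : B × V => E.p q.1 q.2) {α : Type*} [Coded N α]
    {f : α → B} {g : α → V} (hf : DefF N f) (hg : DefF N g) :
    DefF N fun a => E.p (f a) (g a) := h.comp2 hf hg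

/-- strong convergence from norm convergence after composing with an injective operator -/
theorem exists_strong (E0 : Env K B H) (h0 : E0.ip = ip)
    (dp0 : DefF N fun q : B × H => E0.p q.1 q.2) {k : B} (hk : star k = k)
    (inj : ∀ x, E0.p k x = 0 → x = 0) {W : NN N → B} (hW : DefF N W)
    (h1 : ∀ j x, nm (E0.p (W j) x) ≤ nm x) {Y : B} (h2 : Tt (fun j => W j * k) Y) :
    ∃ T : H → H, DefF N T ∧ ∀ x, Tt (fun j => E0.p (W j) x) (T x) := by
  have key : ∀ x, ∃ y, Tt (fun j => E0.p (W j) x) y := fun x => by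
    refine exists_tt (dp dp0 hW (DefF.const x)) fun ε hε => ?_
    obtain ⟨y, hy⟩ := S5.dense_range (N := N) (T := E0.p k) (dp dp0 (DefF.const k) DefF.id)
      (E0.p_vadd k) (E0.p_vsmul k) (fun a b => by rw [← h0, ← E0.p_star, hk]) inj x
      (ε := ε / 4) (by positivity)
    have hp : 0 < nm y + 1 := by linarith [nm_nonneg y]
    obtain ⟨n, hn⟩ := h2 (ε / 4 / (nm y + 1)) (by positivity)
    have b : ∀ j, n ≤ j → nm (E0.p (W j) x - E0.p Y y) < ε / 2 := fun j hj => by
      have e : E0.p (W j) x - E0.p Y y = E0.p (W j) (x - E0.p k y) + E0.p (W j * k - Y) y := by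
        rw [E0.p_vsub, E0.p_sub, E0.p_mul]; abel
      have u1 := h1 j (x - E0.p k y)
      have u2 := E0.p_le (hn j hj).le y
      have u3 : ε / 4 / (nm y + 1) * nm y ≤ ε / 4 := by
        rw [div_mul_eq_mul_div, div_le_iff₀ hp]; nlinarith
      rw [e]
      linarith [nm_add_le (E0.p (W j) (x - E0.p k y)) (E0.p (W j * k - Y) y)]
    refine ⟨n, fun a c ha hc => ?_⟩
    have u := b c hc
    rw [nm_sub_rev] at u
    linarith [nm_triangle (E0.p (W a) x) (E0.p Y y) (E0.p (W c) x), b a ha]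
  obtain ⟨T, hT, h⟩ := exists_intl_choiceT (N := N)
    (R := fun (x y : H) => Tt (fun j => E0.p (W j) x) y)
    (DefF.tt (dp dp0 (hW.comp DefF.id.snd) DefF.id.fst.fst) DefF.id.snd) key
  exact ⟨T, DefF.ofIntl T, h⟩

theorem tt_apply (E : Env K B V) {s : NN N → B} {Y : B} (h : Tt s Y) (x : V) :
    Tt (fun j => E.p (s j) x) (E.p Y x) :=
  h.map (f := fun a => E.p a x) (C := nm x) fun a b => by
    rw [← E.p_sub, mul_comm]; exact E.p_nm _ _

theorem tt_map (E : Env K B V) (a : B) {s : NN N → V} {y : V} (h : Tt s y) :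
    Tt (fun j => E.p a (s j)) (E.p a y) :=
  h.map (f := E.p a) (C := nm a) fun x z => by rw [← E.p_vsub]; exact E.p_nm _ _

theorem cancel_lim (E0 : Env K B H) {W : NN N → B} (hW : ∀ j, Env.Un (W j)) {x y z : H}
    (h1 : Tt (fun j => E0.p (W j) x) y) (h2 : Tt (fun j => E0.p (star (W j)) y) z) : z = x :=
  eq_of_forall_nm_sub_le fun ε hε => by
    obtain ⟨n, hn⟩ := h1 _ (half_pos hε)
    obtain ⟨m, hm⟩ := h2 _ (half_pos hε)
    have u1 := hn (max n m) (le_max_left _ _)
    have u2 := hm (max n m) (le_max_right _ _)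
    have u3 := E0.nm_un (hW (max n m)).star (E0.p (W (max n m)) x - y)
    rw [E0.p_vsub, E0.cancel (hW _), nm_sub_rev] at u3
    rw [nm_sub_rev] at u2
    linarith [nm_triangle z (E0.p (star (W (max n m))) y) x]

theorem kill (E : Env K B V) {A : Set B} (hA : SubA K A) {X : NN N → B} {Y k : B} {ξ : V} {C : R}
    (hX : ∀ j, nm (X j - Y) ≤ C * hp R j) (hXA : ∀ j, X j ∈ A) (hD : E.Det k A) (h1 : nm ξ = 1)
    (h2 : E.p k ξ = 0) (hb : ∀ j, nm (E.p (X j) ξ) ≤ hp R j) {z : V} (hz : E.p k z = 0) :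
    E.p Y z = 0 := by
  refine nm_le_zero_iff.1 (le_of_forall_hp N ((1 + C) * nm z) fun j => ?_)
  have u1 := E.nm_of_det hA hD (hXA j) h1 h2 hz
  have u2 := E.p_le (hX j) z
  have u3 := mul_le_mul_of_nonneg_right (hb j) (nm_nonneg z)
  rw [E.p_sub, nm_sub_rev] at u2
  linarith [nm_le_add_sub (E.p Y z) (E.p (X j) z)]

theorem key_abs (E : Env K B V) (E0 : Env K B H) (h0 : E0.ip = ip)
    (dp0 : DefF N fun q : B × H => E0.p q.1 q.2) (dpE : DefF N fun q : B × V => E.p q.1 q.2)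
    (ext : ∀ a b : B, (∀ x, E0.p a x = E0.p b x) → a = b)
    (mk : ∀ T T' : H → H, DefF N T → DefF N T' → (∀ x y, ip (T' x) y = ip x (T y)) →
      (∀ x, nm (T x) ≤ nm x) → ∃ a : B, ∀ x, E0.p a x = T x)
    {A : Set B} [Intl N A] (hcl : Cld A) {Pos : B → Prop} {F : ι → B → B} (U : Ult E A Pos F)
    {k1 k2 : B} {ξ ζ : V} (C : Conf E A Pos k1 k2 ξ ζ)
    (inj1 : ∀ x, E0.p k1 x = 0 → x = 0) (inj2 : ∀ x, E0.p k2 x = 0 → x = 0) :
    ∃ u : B, (star u * u = 1 ∧ u * star u = 1) ∧ u * k1 ∈ A ∧ k2 * u ∈ A ∧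
      (∀ T : B, (∀ a ∈ A, T * a = a * T) → T * u = u * T) ∧
      (∀ z, E.p k1 z = 0 → E.p k2 (E.p u z) = 0) ∧
      (∀ z, E.p k2 z = 0 → E.p k1 (E.p (star u) z) = 0) := by
  have hA := U.sub
  obtain ⟨W, hWi, -, hW⟩ := exists_intl_seq (N := N)
    (Inv := fun j u => Inv E A k1 k2 ξ ζ (hp R j) u)
    (R := fun j u u' => nm ((u' - u) * k1) ≤ 26 * hp R j ∧ nm (k2 * (u' - u)) ≤ 26 * hp R j)
    (by
      unfold Inv
      refine DefF.and (by fun_prop) (DefF.and (by fun_prop) (DefF.and ?_ ?_))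
      · exact (dp dpE (DefF.const k2) (dp dpE DefF.id.snd (DefF.const ξ))).nm.le (by fun_prop)
      · exact (dp dpE (DefF.const k1) (dp dpE (DefF.star DefF.id.snd) (DefF.const ζ))).nm.le (by fun_prop))
    (by fun_prop) 1 (by rw [hp_zero]; exact inv_one hA C)
    fun j u _ hu => (step U C (hp_pos j) (hp_pos (j + 1)) hu).imp fun _ h => ⟨inferInstance, h⟩
  have dW : DefF N W := DefF.ofIntl W
  have s1 := U.sa _ C.k1_pos
  have s2 := U.sa _ C.k2_pos
  have hU : ∀ j, Env.Un (W j) := fun j => (hW j).1.2.1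
  have hWA : ∀ j, W j ∈ A := fun j => (hW j).1.1
  obtain ⟨Y1, t1, l1⟩ := exists_lim_hp (s := fun j => W j * k1) (C := 26) (by fun_prop)
    fun j => by rw [← sub_mul]; exact (hW j).2.1
  obtain ⟨Y2, t2, l2⟩ := exists_lim_hp (s := fun j => k2 * W j) (C := 26) (by fun_prop)
    fun j => by rw [← mul_sub]; exact (hW j).2.2
  have t3 : Tt (fun j => star (W j) * k2) (star Y2) := tt_of_hp (2 * 26) fun j => by
    rw [← E.nm_star, star_sub, star_mul, star_star, star_star, s2]; exact l2 j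
  obtain ⟨T, dT, hT⟩ := exists_strong E0 h0 dp0 s1 inj1 dW (fun j x => (E0.nm_un (hU j) x).le) t1
  obtain ⟨T', dT', hT'⟩ := exists_strong E0 h0 dp0 s2 inj2 (W := fun j => star (W j))
    (by fun_prop) (fun j x => (E0.nm_un (hU j).star x).le) t3
  have adj : ∀ x y, ip (T' x) y = ip x (T y) := fun x y => by
    have a1 : Tt (fun j => ip (E0.p (star (W j)) x) y) (ip (T' x) y) :=
      (hT' x).map (f := fun a => ip a y) (C := nm y) fun a b => by
        rw [← ip_sub_left, mul_comm]; exact nm_ip_le _ _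
    have a2 : Tt (fun j => ip x (E0.p (W j) y)) (ip x (T y)) :=
      (hT y).map (f := fun a => ip x a) (C := nm x) fun a b => by
        rw [← ip_sub_right]; exact nm_ip_le _ _
    have e : (fun j => ip (E0.p (star (W j)) x) y) = fun j => ip x (E0.p (W j) y) :=
      funext fun j => by rw [← h0, E0.p_star]
    rw [e] at a1
    exact a1.uniq a2
  obtain ⟨u, hu⟩ := mk T T' dT dT' adj fun x => (hT x).nm_le fun j => (E0.nm_un (hU j) x).le
  have hu' : ∀ x, E0.p (star u) x = T' x := fun x => ext_ip_right fun y => by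
    rw [adj, ← hu, ← h0, E0.p_star]
  have e1 : Y1 = u * k1 := ext _ _ fun x => by
    have a := tt_apply E0 t1 x
    simp only [E0.p_mul] at a
    rw [E0.p_mul, hu]
    exact a.uniq (hT _)
  have e2 : Y2 = k2 * u := ext _ _ fun x => by
    have a := tt_apply E0 t2 x
    simp only [E0.p_mul] at a
    rw [E0.p_mul, hu]
    exact a.uniq (tt_map E0 k2 (hT x))
  refine ⟨u, ⟨ext _ _ fun x => ?_, ext _ _ fun x => ?_⟩, ?_, ?_, fun S hS => ext _ _ fun x => ?_,
    fun z hz => ?_, fun z hz => ?_⟩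
  · rw [E0.p_mul, E0.p_one, hu, hu']
    exact cancel_lim E0 hU (hT x) (hT' _)
  · rw [E0.p_mul, E0.p_one, hu, hu']
    exact cancel_lim E0 (W := fun j => star (W j)) (fun j => (hU j).star) (hT' x)
      (by simpa only [star_star] using hT _)
  · exact e1 ▸ hcl.mem_of_tt t1 fun j => hA.mul (hWA j) C.k1_mem
  · exact e2 ▸ hcl.mem_of_tt t2 fun j => hA.mul C.k2_mem (hWA j)
  · have a := tt_map E0 S (hT x)
    have e : (fun j => E0.p S (E0.p (W j) x)) = fun j => E0.p (W j) (E0.p S x) :=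
      funext fun j => by rw [← E0.p_mul, hS _ (hWA j), E0.p_mul]
    rw [e] at a
    rw [E0.p_mul, E0.p_mul, hu, hu]
    exact a.uniq (hT _)
  · rw [← E.p_mul, ← e2]
    exact kill E hA l2 (fun j => hA.mul C.k2_mem (hWA j)) C.det1 C.ξ_nm C.ξ_ker
      (fun j => by rw [E.p_mul]; exact (hW j).1.2.2.1) hz
  · rw [← E.p_mul]
    refine kill E hA (X := fun j => k1 * star (W j)) (C := 2 * 26) (fun j => ?_)
      (fun j => hA.mul C.k1_mem (hA.star (hWA j))) C.det2 C.ζ_nm C.ζ_ker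
      (fun j => by rw [E.p_mul]; exact (hW j).1.2.2.2) hz
    rw [← E.nm_star, star_sub, star_mul, star_mul, star_star, star_star, s1, ← e1]
    exact l1 j

end Vale.Agent.P070Z.O
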