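import Vale.Agent.P070ZO.Env

/-!
# One step of the key construction
-/

set_option linter.all false

namespace Vale.Agent.P070Z.O

open Vale.Agent.P129B Filter

variable {R : Type*} [Field R] [LinearOrder R] [IsStrictOrderedRing R]
  {K : Type*} [Field K] [Algebra R K] [Nm K R] [KA R K]
  {B : Type*} [Ring B] [StarRing B] [Module K B] [Nm B R] [NA R K B]
  {V : Type*} [AddCommGroup V] [Module K V] [Nm V R] [NA R K V]
  {ι : Type*} [SemilatticeSup ι] [Nonempty ι]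

theorem cayley_vec (E : Env K B V) {D r w : B} (hr : r * (1 - D) = 1) (hrn : nm r ≤ 1)
    (hw : w = r * (1 + D)) (ξ α : V) :
    nm (E.p w ξ - α) ≤ nm (E.p D ξ - α) + nm (E.p D α + ξ) := by
  have h1 : E.p r (E.p (1 - D) α) = α := by rw [← E.p_mul, hr, E.p_one]
  have h2 : E.p w ξ - α = E.p r ((E.p D ξ - α) + (E.p D α + ξ)) := by
    have h4 : E.p w ξ - α = E.p r (E.p (1 + D) ξ - E.p (1 - D) α) := by
      rw [E.p_vsub, h1, hw, E.p_mul]
    rw [h4, E.p_add, E.p_sub, E.p_one, E.p_one]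
    congr 1
    abel
  rw [h2]
  exact (E.p_le_one hrn _).trans (nm_add_le _ _)

/-- the hypotheses for one side -/
structure Side (E : Env K B V) (A : Set B) (k1 k2 : B) (f g : ι → B) (ξ : V) : Prop where
  sub : SubA K A
  c1 : Cut A k1 f
  c2 : Cut A k2 g
  det : ∀ x ∈ A, Sm fun m => nm (f m * x * f m - E.ip ξ (E.p x ξ) • (f m * f m))
  ineq : ∀ x ∈ A, Sm fun m => nm (g m * x * f m)
  ξ_nm : nm ξ = 1
  ξ_ker : E.p k1 ξ = 0

namespace Side

variable {E : Env K B V} {A : Set B} {k1 k2 : B} {f g : ι → B} {ξ : V}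
  (S : Side E A k1 k2 f g ξ)
include S

theorem fix (m : ι) : E.p (f m) ξ = ξ := S.c1.p_fix E m S.ξ_ker

theorem t1 {c : B} (hc : c ∈ A) :
    Sm fun m => nm (E.p (f m * f m) (E.p c ξ) - E.ip ξ (E.p c ξ) • ξ) := by
  refine (S.det c hc).mono fun m => ?_
  have h2 : E.p (f m * f m) (E.p c ξ) - E.ip ξ (E.p c ξ) • ξ =
      E.p (f m) (E.p (f m * c * f m - E.ip ξ (E.p c ξ) • (f m * f m)) ξ) := by
    rw [E.p_sub, E.p_smul, E.p_vsub, E.p_vsmul]
    simp only [E.p_mul, S.fix]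
  rw [h2]
  refine (E.p_le_one (S.c1.le m) _).trans ((E.p_nm _ _).trans ?_)
  rw [S.ξ_nm, mul_one]

theorem t2 {c : B} (hc : c ∈ A) : Sm fun m => nm (E.p (g m) (E.p c ξ)) := by
  refine (S.ineq c hc).mono fun m => ?_
  have h2 : E.p (g m) (E.p c ξ) = E.p (g m * c * f m) ξ := by simp only [E.p_mul, S.fix]
  rw [h2]
  refine (E.p_nm _ _).trans ?_
  rw [S.ξ_nm, mul_one]

theorem t2' {c : B} (hc : c ∈ A) : Sm fun m => nm (E.p (g m * g m) (E.p c ξ)) :=
  (S.t2 hc).mono fun m => by rw [E.p_mul]; exact E.p_le_one (S.c2.le m) _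

theorem evn {c : B} (hc : c ∈ A) {t : R} (ht : 0 < t) (h : nm (E.p c ξ) ≤ t) :
    ∀ᶠ m in atTop, nm (c * f m) ≤ 2 * t := by
  filter_upwards [S.det _ (S.sub.mul (S.sub.star hc) hc) (t ^ 2) (by positivity)] with m hm
  have h3 : nm (E.ip ξ (E.p (star c * c) ξ)) ≤ t ^ 2 := by
    rw [E.ip_star_mul, KA.nm_ofR_of_nonneg (sq_nonneg _)]
    exact pow_le_pow_left₀ (nm_nonneg _) h 2
  have h4 : nm (f m * f m) ≤ 1 := by simpa using E.mul_le (S.c1.le m) (S.c1.le m)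
  have h5 : nm (c * f m) * nm (c * f m) = nm (f m * (star c * c) * f m) := by
    rw [← E.cstar, star_mul, S.c1.sa]
    simp only [mul_assoc]
  have h6 := nm_le_add_sub (f m * (star c * c) * f m)
    (E.ip ξ (E.p (star c * c) ξ) • (f m * f m))
  rw [nm_smul] at h6
  have h7 : nm (E.ip ξ (E.p (star c * c) ξ)) * nm (f m * f m) ≤ t ^ 2 * 1 :=
    mul_le_mul h3 h4 (nm_nonneg _) (sq_nonneg _)
  have h8 : nm (c * f m) * nm (c * f m) ≤ 2 * t ^ 2 := by rw [h5]; linarith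
  by_contra hc'
  push Not at hc'
  nlinarith

end Side

/-- the skew element -/
def skewD (f g a b : B) : B := a * (f * f) - (f * f) * star a + (g * g) * star b - b * (g * g)

theorem skewD_swap (f g a b : B) : skewD g f b a = - skewD f g a b := by
  unfold skewD; abel

theorem skewD_star {f g : B} (hf : star f = f) (hg : star g = g) (a b : B) :
    star (skewD f g a b) = - skewD f g a b := by
  unfold skewD
  simp only [star_sub, star_add, star_mul, hf, hg, star_star]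
  abel

theorem skewD_mem {A : Set B} (hA : SubA K A) {f g a b : B} (h1 : f ∈ A) (h2 : g ∈ A)
    (ha : a ∈ A) (hb : b ∈ A) : skewD f g a b ∈ A :=
  hA.sub (hA.add (hA.sub (hA.mul ha (hA.mul h1 h1)) (hA.mul (hA.mul h1 h1) (hA.star ha)))
    (hA.mul (hA.mul h2 h2) (hA.star hb))) (hA.mul hb (hA.mul h2 h2))

theorem nm_mul_skewD (E : Env K B V) {k f g a b : B} (hf : star f = f) (hg : star g = g)
    (f1 : nm f ≤ 1) (g1 : nm g ≤ 1) {δ : R} (h1 : nm (k * a * f) ≤ δ) (h2 : nm (k * f) ≤ 2 * δ)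
    (h3 : nm (k * g) ≤ δ) (h4 : nm (k * b * g) ≤ 6 * δ) (na : nm (a * f) ≤ 2)
    (nb : nm (b * g) ≤ 2) : nm (k * skewD f g a b) ≤ 13 * δ := by
  have na' : nm (f * star a) ≤ 2 := by rw [← E.nm_star, star_mul, star_star, hf]; exact na
  have nb' : nm (g * star b) ≤ 2 := by rw [← E.nm_star, star_mul, star_star, hg]; exact nb
  have e : k * skewD f g a b = k * a * f * f - k * f * (f * star a) + k * g * (g * star b) -
      k * b * g * g := by
    unfold skewD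
    noncomm_ring
  have t1 := E.mul_le h1 f1
  have t2 := E.mul_le h2 na'
  have t3 := E.mul_le h3 nb'
  have t4 := E.mul_le h4 g1
  rw [e]
  have u1 := nm_sub_le (k * a * f * f - k * f * (f * star a) + k * g * (g * star b))
    (k * b * g * g)
  have u2 := nm_add_le (k * a * f * f - k * f * (f * star a)) (k * g * (g * star b))
  have u3 := nm_sub_le (k * a * f * f) (k * f * (f * star a))
  linarith

namespace Side

variable {E : Env K B V} {A : Set B} {k1 k2 : B} {f g : ι → B} {ξ : V}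
  (S : Side E A k1 k2 f g ξ)
include S

theorem tD {a b c : B} (ha : a ∈ A) (hb : b ∈ A) (hc : c ∈ A) :
    Sm fun m => nm (E.p (skewD (f m) (g m) a b) (E.p c ξ) -
      (E.ip ξ (E.p c ξ) • E.p a ξ - E.ip ξ (E.p (star a * c) ξ) • ξ)) := by
  have h1 := (S.t1 hc).const_mul (nm_nonneg a)
  have h2 := S.t1 (S.sub.mul (S.sub.star ha) hc)
  have h3 := S.t2' (S.sub.mul (S.sub.star hb) hc)
  have h4 := (S.t2' hc).const_mul (nm_nonneg b)
  refine (((h1.add h2).add h3).add h4).mono fun m => ?_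
  have e : E.p (skewD (f m) (g m) a b) (E.p c ξ) -
      (E.ip ξ (E.p c ξ) • E.p a ξ - E.ip ξ (E.p (star a * c) ξ) • ξ) =
      E.p a (E.p (f m * f m) (E.p c ξ) - E.ip ξ (E.p c ξ) • ξ) -
        (E.p (f m * f m) (E.p (star a * c) ξ) - E.ip ξ (E.p (star a * c) ξ) • ξ) +
        E.p (g m * g m) (E.p (star b * c) ξ) - E.p b (E.p (g m * g m) (E.p c ξ)) := by
    simp only [skewD, E.p_sub, E.p_add, E.p_mul, E.p_vsub, E.p_vsmul]
    abel
  rw [e]
  refine (nm_sub_le _ _).trans (add_le_add ((nm_add_le _ _).trans (add_le_add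
    ((nm_sub_le _ _).trans (add_le_add (E.p_nm _ _) le_rfl)) le_rfl)) (E.p_nm _ _))

theorem final {a b : B} (ha : a ∈ A) (hb : b ∈ A) {κ : R} (hκ : 0 < κ) (hn : nm (E.p a ξ) = 1)
    (h : nm (E.ip ξ (E.p a ξ)) ≤ κ) :
    ∀ᶠ m in atTop, nm (E.p (skewD (f m) (g m) a b) ξ - E.p a ξ) ≤ 2 * κ ∧
      nm (E.p (skewD (f m) (g m) a b) (E.p a ξ) + ξ) ≤ 2 * κ := by
  have h1 := S.tD ha hb S.sub.one κ hκ
  have h2 := S.tD ha hb ha κ hκ
  have e1 : E.ip ξ (E.p (star a * a) ξ) = 1 := by rw [E.ip_star_mul, hn, one_pow, map_one]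
  simp only [E.p_one, mul_one, E.ip_one S.ξ_nm, one_smul] at h1
  rw [e1, one_smul] at h2
  filter_upwards [h1, h2] with m g1 g2
  constructor
  · have u := nm_triangle (E.p (skewD (f m) (g m) a b) ξ)
      (E.p a ξ - E.ip ξ (E.p (star a) ξ) • ξ) (E.p a ξ)
    rw [sub_sub_cancel_left, nm_neg, nm_smul, S.ξ_nm, mul_one, E.p_star', E.nm_ip_symm] at u
    rw [E.p_star'] at g1
    linarith
  · have u := nm_triangle (E.p (skewD (f m) (g m) a b) (E.p a ξ))
      (E.ip ξ (E.p a ξ) • E.p a ξ - ξ) (-ξ)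
    rw [sub_neg_eq_add, sub_neg_eq_add, sub_add_cancel, nm_smul, hn, mul_one] at u
    linarith

theorem exists_a (full : E.Full k2 A ξ) (k1n : nm k1 ≤ 1) (n : ι) {κ δ η : R} (hκ : 0 < κ)
    (hδ : 0 < δ) (hη : 0 < η) (h1 : nm (E.p (g n) ξ) ≤ κ) (h2 : nm (k1 * g n) ≤ 2 * δ) :
    ∃ a ∈ A, nm (E.p a ξ) = 1 ∧ nm (E.ip ξ (E.p a ξ)) ≤ 2 * κ ∧
      nm (E.p k1 (E.p a ξ)) ≤ 3 * δ ∧ nm (E.p k2 (E.p a ξ)) ≤ η := by
  obtain ⟨h, hh⟩ := S.c2.fix n
  have hp : 0 < nm h + 1 := by linarith [nm_nonneg h]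
  set ε := min η (min κ δ / (nm h + 1)) with hε
  have hε0 : 0 < ε := lt_min hη (div_pos (lt_min hκ hδ) hp)
  obtain ⟨a', ha', hne, hb⟩ := full ε hε0
  have hpos := nm_pos_iff.2 hne
  set a := algebraMap R K (nm (E.p a' ξ))⁻¹ • a' with ha
  have n1 : nm (E.p a ξ) = 1 := by rw [ha, E.p_smul]; exact nm_normalize hne
  have n2 : nm (E.p k2 (E.p a ξ)) ≤ ε := by
    rw [ha, E.p_smul, E.p_vsmul, nm_ofR_smul_of_nonneg (inv_nonneg.2 hpos.le),
      inv_mul_le_iff₀ hpos, mul_comm]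
    exact hb
  have hA : a ∈ A := S.sub.smul _ ha'
  refine ⟨a, hA, ?_⟩
  generalize E.p a ξ = α at n1 n2 ⊢
  have d : α = E.p (g n) α + E.p h (E.p k2 α) := by
    rw [← E.p_mul, ← hh, E.p_sub, E.p_one]; abel
  have b1 : nm (E.p h (E.p k2 α)) ≤ min κ δ := by
    refine (E.p_nm _ _).trans ((mul_le_mul_of_nonneg_left (n2.trans (min_le_right _ _))
      (nm_nonneg h)).trans ?_)
    rw [← mul_div_assoc, div_le_iff₀ hp]
    nlinarith [lt_min hκ hδ]
  refine ⟨n1, ?_, ?_, n2.trans (min_le_left _ _)⟩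
  · rw [congrArg (E.ip ξ) d, E.ip_add]
    refine (nm_add_le _ _).trans ?_
    have u1 := E.cs (E.p (g n) ξ) α
    have u2 := E.cs ξ (E.p h (E.p k2 α))
    rw [← E.p_star', S.c2.sa, n1, mul_one] at u1
    rw [S.ξ_nm, one_mul] at u2
    linarith [min_le_left κ δ]
  · rw [congrArg (E.p k1) d, E.p_vadd, ← E.p_mul]
    refine (nm_add_le _ _).trans ?_
    have u1 := E.p_le h2 α
    have u2 := E.p_le_one k1n (E.p h (E.p k2 α))
    rw [n1, mul_one] at u1
    linarith [min_le_right κ δ]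

end Side

theorem one_step {E : Env K B V} {A : Set B} {Pos : B → Prop} {F : ι → B → B}
    (U : Ult E A Pos F) {k1 k2 : B} {ξ ζ : V} (C : Conf E A Pos k1 k2 ξ ζ) {δ δ' : R}
    (hδ : 0 < δ) (hδ' : 0 < δ') (h1 : nm (E.p k2 ξ) ≤ δ) (h2 : nm (E.p k1 ζ) ≤ δ) :
    ∃ w ∈ A, Env.Un w ∧ nm ((w - 1) * k1) ≤ 26 * δ ∧ nm (k2 * (w - 1)) ≤ 26 * δ ∧
      nm (E.p k2 (E.p w ξ)) ≤ δ' ∧ nm (E.p k1 (E.p (star w) ζ)) ≤ δ' := by
  have hA := U.sub
  have S1 : Side E A k1 k2 (fun m => F m k1) (fun m => F m k2) ξ :=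
    ⟨hA, U.cut _ C.k1_mem C.k1_pos, U.cut _ C.k2_mem C.k2_pos,
      fun x hx => U.det _ _ _ C.k1_pos (C.det1.at C.ξ_nm C.ξ_ker hx),
      fun x hx => U.ineq _ _ _ C.k1_pos C.k2_pos (C.ineq x hx), C.ξ_nm, C.ξ_ker⟩
  have S2 : Side E A k2 k1 (fun m => F m k2) (fun m => F m k1) ζ :=
    ⟨hA, U.cut _ C.k2_mem C.k2_pos, U.cut _ C.k1_mem C.k1_pos,
      fun x hx => U.det _ _ _ C.k2_pos (C.det2.at C.ζ_nm C.ζ_ker hx),
      fun x hx => U.ineq _ _ _ C.k2_pos C.k1_pos (C.ineq.symm hA x hx), C.ζ_nm, C.ζ_ker⟩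
  have hκ : 0 < δ' / 16 := by positivity
  have hη : 0 < min (δ / 2) (δ' / 2) := by positivity
  obtain ⟨n, d1, d2, d4, d5⟩ := ((S1.evn C.k2_mem hδ h1).and ((S2.evn C.k1_mem hδ h2).and
    ((S1.t2 hA.one _ hκ).and (S2.t2 hA.one _ hκ)))).exists
  rw [E.p_one] at d4 d5
  obtain ⟨a, ha, na, pa, qa, ra⟩ := S1.exists_a C.full1 C.k1_nm n hκ hδ hη d4 d2
  obtain ⟨b, hb, nb, pb, qb, rb⟩ := S2.exists_a C.full2 C.k2_nm n hκ hδ hη d5 d1
  have hκ2 : 0 < 2 * (δ' / 16) := by positivity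
  have f1 := S1.final ha hb hκ2 na pa
  have f2 := S2.final hb ha hκ2 nb pb
  have f3 := S1.evn ha one_pos na.le
  have f4 := S2.evn hb one_pos nb.le
  have f5 := S1.evn (hA.mul C.k2_mem ha) (half_pos hδ)
    (by rw [E.p_mul]; exact ra.trans (min_le_left _ _))
  have f6 := S2.evn (hA.mul C.k1_mem hb) (half_pos hδ)
    (by rw [E.p_mul]; exact rb.trans (min_le_left _ _))
  have f7 := S1.evn (hA.mul C.k1_mem ha) (t := 3 * δ) (by positivity) (by rw [E.p_mul]; exact qa)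
  have f8 := S2.evn (hA.mul C.k2_mem hb) (t := 3 * δ) (by positivity) (by rw [E.p_mul]; exact qb)
  obtain ⟨m, ⟨g1, g2, g3, g4⟩, ⟨g5, g6, g7, g8⟩, g9, g10, g11, g12⟩ :=
    ((f1.and (f2.and (f3.and f4))).and ((f5.and (f6.and (f7.and f8))).and
      ((S1.evn C.k2_mem hδ h1).and ((S2.evn C.k1_mem hδ h2).and
        ((S1.c1.small δ hδ).and (S1.c2.small δ hδ)))))).exists
  rw [mul_one] at g3 g4
  have b1 := nm_mul_skewD E (S1.c1.sa m) (S1.c2.sa m) (S1.c1.le m) (S1.c2.le m) (δ := δ)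
    (by linarith) g9 g12 (by linarith) g3 g4
  have b2 := nm_mul_skewD E (S1.c2.sa m) (S1.c1.sa m) (S1.c2.le m) (S1.c1.le m) (δ := δ)
    (by linarith) g10 g11 (by linarith) g4 g3
  rw [skewD_swap] at b2 g2
  have hDs := skewD_star (S1.c1.sa m) (S1.c2.sa m) a b
  have hDA := skewD_mem hA (S1.c1.mem m) (S1.c2.mem m) ha hb
  generalize skewD (F m k1) (F m k2) a b = D at b1 b2 g1 g2 hDs hDA
  have b3 : nm (D * k1) ≤ 13 * δ := by
    rw [← E.nm_star, star_mul, hDs, U.sa _ C.k1_pos]; exact b2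
  obtain ⟨r, hrA, hrn, r1, r2⟩ := U.cay D hDA hDs
  have hcomm : r * D = D * r := by
    have := r1.trans r2.symm
    rw [mul_sub, sub_mul, mul_one, one_mul] at this
    exact sub_right_injective this
  have s1 : star r * (1 + D) = 1 := by
    have := congrArg star r2
    rwa [star_mul, star_sub, star_one, hDs, sub_neg_eq_add] at this
  have s2 : (1 + D) * star r = 1 := by
    have := congrArg star r1
    rwa [star_mul, star_sub, star_one, hDs, sub_neg_eq_add] at this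
  have w1 : r * (1 + D) = (1 + D) * r := by rw [mul_add, add_mul, hcomm, mul_one, one_mul]
  have w2 : star (r * (1 + D)) = star r * (1 - D) := by
    rw [w1, star_mul, star_add, star_one, hDs, ← sub_eq_add_neg]
  have w3 : star (r * (1 + D)) = (1 - D) * star r := by
    rw [star_mul, star_add, star_one, hDs, ← sub_eq_add_neg]
  have w4 : r * (1 + D) - 1 = r * D + r * D := by
    have : r * (1 + D) - 1 = r * (1 + D) - r * (1 - D) := by rw [r1]
    rw [this]; noncomm_ring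
  have hcD : (1 - D) * (1 + D) = (1 + D) * (1 - D) := by noncomm_ring
  refine ⟨r * (1 + D), hA.mul hrA (hA.add hA.one hDA), ⟨?_, ?_⟩, ?_, ?_, ?_, ?_⟩
  · rw [w2, w1]
    calc star r * (1 - D) * ((1 + D) * r) = star r * ((1 - D) * (1 + D)) * r := by
          simp only [mul_assoc]
      _ = (star r * (1 + D)) * ((1 - D) * r) := by rw [hcD]; simp only [mul_assoc]
      _ = 1 := by rw [s1, r2, one_mul]
  · rw [w3]
    calc r * (1 + D) * ((1 - D) * star r) = r * ((1 + D) * (1 - D)) * star r := by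
          simp only [mul_assoc]
      _ = (r * (1 - D)) * ((1 + D) * star r) := by rw [← hcD]; simp only [mul_assoc]
      _ = 1 := by rw [s2, r1, one_mul]
  · rw [w4, add_mul, mul_assoc]
    have := E.mul_le hrn b3
    linarith [nm_add_le (r * (D * k1)) (r * (D * k1))]
  · rw [w4, mul_add, hcomm, ← mul_assoc]
    have := E.mul_le b1 hrn
    linarith [nm_add_le (k2 * D * r) (k2 * D * r)]
  · have v1 := cayley_vec E r1 hrn rfl ξ (E.p a ξ)
    have v4 := E.p_le_one C.k2_nm (E.p (r * (1 + D)) ξ - E.p a ξ)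
    rw [E.p_vsub] at v4
    linarith [g1.1, g1.2, min_le_right (δ / 2) (δ' / 2),
      nm_le_add_sub (E.p k2 (E.p (r * (1 + D)) ξ)) (E.p k2 (E.p a ξ))]
  · have hr' : star r * (1 - -D) = 1 := by rw [sub_neg_eq_add]; exact s1
    have hw' : star (r * (1 + D)) = star r * (1 + -D) := by rw [← sub_eq_add_neg]; exact w2
    have v1 := cayley_vec E hr' (by rw [E.nm_star]; exact hrn) hw' ζ (E.p b ζ)
    have v4 := E.p_le_one C.k1_nm (E.p (star (r * (1 + D))) ζ - E.p b ζ)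
    rw [E.p_vsub] at v4
    linarith [g2.1, g2.2, min_le_right (δ / 2) (δ' / 2),
      nm_le_add_sub (E.p k1 (E.p (star (r * (1 + D))) ζ)) (E.p k1 (E.p b ζ))]

theorem conf_conj {E : Env K B V} {A : Set B} {Pos : B → Prop} {F : ι → B → B}
    (U : Ult E A Pos F) {k1 k2 : B} {ξ ζ : V} (C : Conf E A Pos k1 k2 ξ ζ) {u : B} (huA : u ∈ A)
    (hu : Env.Un u) : Conf E A Pos (u * k1 * star u) k2 (E.p u ξ) ζ := by
  have hA := U.sub
  have hsu := hA.star huA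
  have ker : ∀ z : V, E.p (u * k1 * star u) z = 0 → E.p k1 (E.p (star u) z) = 0 := by
    intro z hz
    rw [E.p_mul, E.p_mul] at hz
    rw [← E.cancel hu (E.p k1 _), hz, E.p_vzero]
  refine ⟨hA.mul (hA.mul huA C.k1_mem) hsu, C.k2_mem, U.conj _ _ C.k1_pos, C.k2_pos,
    (E.mul_un_le hu.star _).trans ((E.un_mul_le hu _).trans C.k1_nm), C.k2_nm, ?_, C.det2, ?_,
    by rw [E.nm_un hu]; exact C.ξ_nm, C.ζ_nm, ?_, C.ζ_ker, ?_, ?_⟩
  · intro x hx
    obtain ⟨c, hc⟩ := C.det1 (star u * x * u) (hA.mul (hA.mul hsu hx) huA)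
    refine ⟨c, fun z w hz hw => ?_⟩
    have h1 := hc _ _ (ker z hz) (ker w hw)
    rwa [E.p_star, E.p_star, E.p_mul, E.p_mul, E.cancel' hu, E.cancel' hu] at h1
  · intro x hx z1 z2 hz1 hz2
    have h1 := C.ineq (x * u) (hA.mul hx huA) _ z2 (ker z1 hz1) hz2
    rwa [E.p_mul, E.cancel' hu] at h1
  · rw [E.p_mul, E.p_mul, E.cancel hu, C.ξ_ker, E.p_vzero]
  · intro ε hε
    obtain ⟨a, ha, h1, h2⟩ := C.full1 ε hε
    refine ⟨a * star u, hA.mul ha hsu, ?_⟩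
    rw [E.p_mul, E.cancel hu]
    exact ⟨h1, h2⟩
  · intro ε hε
    obtain ⟨b, hb, h1, h2⟩ := C.full2 ε hε
    refine ⟨u * b, hA.mul huA hb, ?_⟩
    rw [E.p_mul, E.p_mul, E.p_mul, E.cancel hu, E.nm_un hu, E.nm_un hu]
    refine ⟨fun h0 => h1 ?_, h2⟩
    rw [← E.cancel hu (E.p b ζ), h0, E.p_vzero]

/-- the invariant of the iteration -/
def Inv (E : Env K B V) (A : Set B) (k1 k2 : B) (ξ ζ : V) (δ : R) (u : B) : Prop :=
  u ∈ A ∧ (star u * u = 1 ∧ u * star u = 1) ∧ nm (E.p k2 (E.p u ξ)) ≤ δ ∧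
    nm (E.p k1 (E.p (star u) ζ)) ≤ δ

theorem step {E : Env K B V} {A : Set B} {Pos : B → Prop} {F : ι → B → B}
    (U : Ult E A Pos F) {k1 k2 : B} {ξ ζ : V} (C : Conf E A Pos k1 k2 ξ ζ) {δ δ' : R}
    (hδ : 0 < δ) (hδ' : 0 < δ') {u : B} (hu : Inv E A k1 k2 ξ ζ δ u) :
    ∃ u', Inv E A k1 k2 ξ ζ δ' u' ∧ nm ((u' - u) * k1) ≤ 26 * δ ∧ nm (k2 * (u' - u)) ≤ 26 * δ := by
  obtain ⟨huA, hU, h1, h2⟩ := hu
  have hU' : Env.Un u := hU
  have cn : ∀ z : V, nm (E.p (u * k1 * star u) z) = nm (E.p k1 (E.p (star u) z)) := fun z => by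
    rw [E.p_mul, E.p_mul, E.nm_un hU']
  obtain ⟨w, hwA, hwU, hw1, hw2, hw3, hw4⟩ := one_step U (conf_conj U C huA hU') hδ hδ' h1
    (by rw [cn]; exact h2)
  refine ⟨w * u, ⟨U.sub.mul hwA huA, hwU.mul hU', ?_, ?_⟩, ?_, ?_⟩
  · rw [E.p_mul]; exact hw3
  · rw [cn] at hw4
    rw [star_mul, E.p_mul]; exact hw4
  · have e : (w * u - u) * k1 = (w - 1) * (u * k1 * star u) * u := by
      calc (w * u - u) * k1 = (w - 1) * (u * k1) * 1 := by noncomm_ring
        _ = (w - 1) * (u * k1) * (star u * u) := by rw [hU.1]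
        _ = _ := by noncomm_ring
    rw [e]
    exact (E.mul_un_le hU' _).trans hw1
  · have e : k2 * (w * u - u) = k2 * (w - 1) * u := by noncomm_ring
    rw [e]
    exact (E.mul_un_le hU' _).trans hw2

theorem inv_one {E : Env K B V} {A : Set B} {Pos : B → Prop} (hA : SubA K A) {k1 k2 : B}
    {ξ ζ : V} (C : Conf E A Pos k1 k2 ξ ζ) : Inv E A k1 k2 ξ ζ 1 1 := by
  refine ⟨hA.one, Env.un_one, ?_, ?_⟩
  · rw [E.p_one, ← C.ξ_nm]; exact E.p_le_one C.k2_nm _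
  · rw [star_one, E.p_one, ← C.ζ_nm]; exact E.p_le_one C.k1_nm _

end Vale.Agent.P070Z.O
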